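import Vale.Agent.P246.T.Top
import Vale.Agent.P246.Bdl.B2
import Vale.Agent.P246.Small.N3
import Vale.Agent.P246.Q16.Main
import Vale.Agent.P246.Q20.Main
import Vale.Agent.P246.Q24.Main
import Vale.Agent.P246.Q28.J
import Vale.Agent.P246.Q32.Main
import Vale.Agent.P246.Q36.Main

/-!
# The D(2) property of the free abelian groups and of the quaternion groups `Q_4n`, `n ≤ 9`

For `G = ℤ^n` (all `n`) and for `G = Q_4n` (`1 ≤ n ≤ 9`): every finite connected CW complex with
fundamental group `G` which satisfies Wall's D(2) condition is homotopy equivalent to a finite CW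
complex of dimension at most two.
-/

namespace Vale.Agent.Results.P246.FreeAbelianAndQuaternionTop

open Vale.Agent.P246.T

theorem result : (∀ n : ℕ, D2Property (Multiplicative (Fin n → ℤ))) ∧
    ∀ n : ℕ, 1 ≤ n → n ≤ 9 → D2Property (QuaternionGroup n) := by
  refine ⟨fun n => top _ (Vale.Agent.P246.d2_main n).1, ?_⟩
  intro n h1 h9
  apply top
  interval_cases n
  · exact Vale.Agent.P246.Small.main1
  · exact Vale.Agent.P246.Small.main2
  · exact Vale.Agent.P246.Small.N3.main3
  · exact Vale.Agent.P246.Q16.main
  · exact Vale.Agent.P246.Q20.main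
  · exact Vale.Agent.P246.Q24.main
  · exact Vale.Agent.P246.Q28.main
  · exact Vale.Agent.P246.Q32.main
  · exact Vale.Agent.P246.Q36.main

end Vale.Agent.Results.P246.FreeAbelianAndQuaternionTop
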