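import Vale.Agent.P246.T.Top
import Vale.Agent.P246.Small.N3
import Vale.Agent.P246.Q16.Main
import Vale.Agent.P246.Q20.Main
import Vale.Agent.P246.Q24.Main
import Vale.Agent.P246.Q28.J
import Vale.Agent.P246.Q32.Main
import Vale.Agent.P246.Q36.Main

/-!
# The D(2) property of the generalized quaternion groups `Q_4n`, `n ≤ 9`

For `G = Q_4n` with `1 ≤ n ≤ 9`: every finite connected CW complex with fundamental group `G`
which satisfies Wall's D(2) condition is homotopy equivalent to a finite CW complex of dimension
at most two.
-/

namespace Vale.Agent.Results.P246.QuaternionAtMostNineTop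

open Vale.Agent.P246.T

theorem result : ∀ n : ℕ, 1 ≤ n → n ≤ 9 → D2Property (QuaternionGroup n) := by
  intro n h1 h9
  apply top
  interval_cases n
  · exact Vale.Agent.P246.Small.main1
  · exact Vale.Agent.P246.Small.main2
  · exact Vale.Agent.P246.Small.N3.main3
  · exact Vale.Agent.P246.Q16.main
  · exact Vale.Agent.P246.Q20.main
  · exact Vale.Agent.P246.Q24.main
  · exact Vale.Agent.P246.Q28.main
  · exact Vale.Agent.P246.Q32.main
  · exact Vale.Agent.P246.Q36.main

end Vale.Agent.Results.P246.QuaternionAtMostNineTop
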