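import Vale.Agent.P246.Q24.Main
import Vale.Agent.P246.Q28.J
import Vale.Agent.P246.Q32.Main
import Vale.Agent.P246.Q36.Main

/-!
# The D(2) property for the generalized quaternion groups of orders 24, 28, 32, 36
(algebraic form)

For `G = Q_4n` with `6 ≤ n ≤ 9`: every finite algebraic D(2) complex over `ℤ[G]` is chain homotopy
equivalent to the Fox complex of a finite presentation of `G`.
-/

namespace Vale.Agent.Results.P246.QuaternionSixToNine

open Vale.Agent.P246

theorem result (n : ℕ) (h6 : 6 ≤ n) (h9 : n ≤ 9) : AlgebraicD2Property (QuaternionGroup n) := by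
  interval_cases n
  · exact Vale.Agent.P246.Q24.main
  · exact Vale.Agent.P246.Q28.main
  · exact Vale.Agent.P246.Q32.main
  · exact Vale.Agent.P246.Q36.main

end Vale.Agent.Results.P246.QuaternionSixToNine
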